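import Vale.Agent.P221Y98.Main
import Vale.Agent.P251CX.Top

/-!
The Hahn-Wilson conjecture fails in the homotopy category of orthogonal spectra.
-/

namespace Vale.Agent.Results.P221.AOrthogonal

open Vale.Agent.P251.St (SHCat Susp)
open Vale.Agent.P251CX Vale.Agent.P221Y98 Vale.Agent.P221Y98.L

theorem result : (∃ (T : SHCat) (S : Susp T), Nonempty (IsSH T S.1)) ∧
    ∀ (T : SHCat) (S : Susp T), ¬ HahnWilson S.1 ∧ ∀ p : ℕ, p.Prime → 5 ≤ p →
      (∀ (P : RingSp T) (o : Oriented S.1 P) φ, IsBP p o φ → PolyCoef p φ) ∧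
      (∃ K, IsMorava S.1 p K) ∧ (∃ B, IsStd S.1 p 2 B) ∧
      ∃ X, (∀ K, IsMorava S.1 p K → FpType K p 2 X) ∧ ∀ B, IsStd S.1 p 2 B → ¬ Thick p B X :=
  ⟨exists_isSH, fun _ S => ⟨not_hahnWilson S, fun _ hp h5 =>
    ⟨polyCoef hp, counterexample S hp h5⟩⟩⟩

end Vale.Agent.Results.P221.AOrthogonal
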